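import Mathlib

/-!
# P064: arithmetic for the bounded-degree copy-count inequality (report 2170)

Stand-alone real and natural-number inequalities used in the proof that a host graph of maximum
degree at most `D` satisfies `inj(F,H) ≤ n ^ v * (4 e D q) ^ e` and hence the copy-count
inequality with `L = 81 D`.
-/

namespace Vale.Agent.Lib.P064.H88

open Finset

/-- `m ^ 2 ≤ 4 ^ (m - 1)` for `m ≥ 2`. -/
theorem sq_le_four_pow {m : ℕ} (hm : 2 ≤ m) : m ^ 2 ≤ 4 ^ (m - 1) := by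
  induction m, hm using Nat.le_induction with
  | base => norm_num
  | succ k hk ih =>
    have h1 : k + 1 - 1 = (k - 1) + 1 := by omega
    rw [h1, pow_succ]
    have h2 : (k + 1) ^ 2 ≤ k ^ 2 * 4 := by nlinarith
    exact h2.trans (Nat.mul_le_mul_right 4 ih)

/-- `t ^ t ≤ e ^ t * t!`. -/
theorem pow_self_le_exp_mul_factorial (t : ℕ) :
    (t : ℝ) ^ t ≤ Real.exp t * (t.factorial : ℝ) := by
  have h := Real.pow_div_factorial_le_exp (x := (t : ℝ)) (Nat.cast_nonneg t) t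
  have hf : (0 : ℝ) < (t.factorial : ℝ) := by exact_mod_cast Nat.factorial_pos t
  rwa [div_le_iff₀ hf] at h

/-- If `t! ≤ B ^ t` then `t ≤ e * B`. -/
theorem le_exp_mul_of_factorial_le_pow {t : ℕ} {B : ℝ} (hB : 0 ≤ B)
    (h : (t.factorial : ℝ) ≤ B ^ t) : (t : ℝ) ≤ Real.exp 1 * B := by
  rcases Nat.eq_zero_or_pos t with rfl | ht
  · simp only [Nat.cast_zero]
    positivity
  · have h1 := pow_self_le_exp_mul_factorial t
    have h2 : (t : ℝ) ^ t ≤ (Real.exp 1 * B) ^ t := by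
      calc (t : ℝ) ^ t ≤ Real.exp t * (t.factorial : ℝ) := h1
        _ ≤ Real.exp t * B ^ t := mul_le_mul_of_nonneg_left h (Real.exp_pos _).le
        _ = (Real.exp 1 * B) ^ t := by
          rw [mul_pow, ← Real.exp_nat_mul, mul_one]
    exact (pow_le_pow_iff_left₀ (Nat.cast_nonneg t) (by positivity) (by omega)).1 h2

/-- `n ^ v * v! ≤ v ^ v * (n)_v` for `v ≤ n`. -/
theorem pow_mul_factorial_le {n v : ℕ} (hv : v ≤ n) :
    n ^ v * v.factorial ≤ v ^ v * n.descFactorial v := by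
  have h1 : n ^ v * v.factorial = ∏ i ∈ range v, (n * (v - i)) := by
    rw [Finset.prod_mul_distrib, Finset.prod_const, Finset.card_range,
      ← Nat.descFactorial_eq_prod_range, Nat.descFactorial_self]
  have h2 : v ^ v * n.descFactorial v = ∏ i ∈ range v, (v * (n - i)) := by
    rw [Finset.prod_mul_distrib, Finset.prod_const, Finset.card_range,
      ← Nat.descFactorial_eq_prod_range]
  rw [h1, h2]
  refine Finset.prod_le_prod' fun i hi => ?_
  have hi' : i < v := Finset.mem_range.1 hi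
  have e1 : n * (v - i) = n * v - n * i := Nat.mul_sub n v i
  have e2 : v * (n - i) = v * n - v * i := Nat.mul_sub v n i
  rw [e1, e2, Nat.mul_comm v n]
  have : v * i ≤ n * i := Nat.mul_le_mul_right i hv
  omega

/-- `n ^ v ≤ e ^ v * (n)_v` for `v ≤ n`. -/
theorem pow_le_exp_mul_descFactorial {n v : ℕ} (hv : v ≤ n) :
    (n : ℝ) ^ v ≤ Real.exp v * (n.descFactorial v : ℝ) := by
  have h1 : ((n ^ v * v.factorial : ℕ) : ℝ) ≤ ((v ^ v * n.descFactorial v : ℕ) : ℝ) := by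
    exact_mod_cast pow_mul_factorial_le hv
  push_cast at h1
  have h2 := pow_self_le_exp_mul_factorial v
  have hf : (0 : ℝ) < (v.factorial : ℝ) := by exact_mod_cast Nat.factorial_pos v
  have hd : (0 : ℝ) ≤ (n.descFactorial v : ℝ) := Nat.cast_nonneg _
  have h3 : (n : ℝ) ^ v * (v.factorial : ℝ) ≤
      (Real.exp v * (n.descFactorial v : ℝ)) * (v.factorial : ℝ) := by
    calc (n : ℝ) ^ v * (v.factorial : ℝ) ≤ (v : ℝ) ^ v * (n.descFactorial v : ℝ) := h1
      _ ≤ (Real.exp v * (v.factorial : ℝ)) * (n.descFactorial v : ℝ) :=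
          mul_le_mul_of_nonneg_right h2 hd
      _ = (Real.exp v * (n.descFactorial v : ℝ)) * (v.factorial : ℝ) := by ring
  exact le_of_mul_le_mul_right h3 hf

/-- `4 e ^ 3 ≤ 81`. -/
theorem four_mul_exp_cube_le : 4 * Real.exp 1 ^ 3 ≤ 81 := by
  have h := Real.exp_one_lt_d9
  have h0 : (0 : ℝ) ≤ Real.exp 1 := (Real.exp_pos 1).le
  have h3 : Real.exp 1 ^ 3 ≤ (2.7182818286 : ℝ) ^ 3 := pow_le_pow_left₀ h0 h.le 3
  norm_num at h3 ⊢
  linarith

/-- The component step: `e * m ^ 2 * D ^ (m - 1) * (N * q ^ e') ≤ N * (4 e D q) ^ e'` when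
`m ≥ 2`, `e' ≥ m - 1`, `D ≥ 1`, `q ≥ 0`, `N ≥ 0`. -/
theorem component_arith {m e' : ℕ} (hm : 2 ≤ m) (he : m - 1 ≤ e') {D q N : ℝ} (hD : 1 ≤ D)
    (hq : 0 ≤ q) (hN : 0 ≤ N) :
    Real.exp 1 * (m : ℝ) ^ 2 * D ^ (m - 1) * (N * q ^ e') ≤
      N * (4 * Real.exp 1 * D * q) ^ e' := by
  have he1 : 1 ≤ e' := by omega
  have hE : (1 : ℝ) ≤ Real.exp 1 := by
    have := Real.add_one_le_exp (1 : ℝ)
    linarith
  have hE0 : (0 : ℝ) ≤ Real.exp 1 := by linarith
  have hD0 : (0 : ℝ) ≤ D := by linarith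
  have a1 : (m : ℝ) ^ 2 ≤ 4 ^ e' := by
    have h1 : ((m ^ 2 : ℕ) : ℝ) ≤ ((4 ^ (m - 1) : ℕ) : ℝ) := by
      exact_mod_cast sq_le_four_pow hm
    push_cast at h1
    exact h1.trans (pow_le_pow_right₀ (by norm_num) he)
  have a2 : Real.exp 1 ≤ Real.exp 1 ^ e' := by
    calc Real.exp 1 = Real.exp 1 ^ 1 := (pow_one _).symm
      _ ≤ Real.exp 1 ^ e' := pow_le_pow_right₀ hE he1
  have a3 : D ^ (m - 1) ≤ D ^ e' := pow_le_pow_right₀ hD he
  have hq' : (0 : ℝ) ≤ N * q ^ e' := mul_nonneg hN (pow_nonneg hq _)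
  have hm2 : (0 : ℝ) ≤ (m : ℝ) ^ 2 := by positivity
  have hDm : (0 : ℝ) ≤ D ^ (m - 1) := pow_nonneg hD0 _
  calc Real.exp 1 * (m : ℝ) ^ 2 * D ^ (m - 1) * (N * q ^ e')
      ≤ Real.exp 1 ^ e' * 4 ^ e' * D ^ e' * (N * q ^ e') := by
        apply mul_le_mul_of_nonneg_right _ hq'
        apply mul_le_mul _ a3 hDm (by positivity)
        exact mul_le_mul a2 a1 hm2 (by positivity)
    _ = N * (4 * Real.exp 1 * D * q) ^ e' := by
        rw [mul_pow, mul_pow, mul_pow]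
        ring

/-- The final step: `e ^ v * (4 e D q) ^ e ≤ (81 D q) ^ e` when `v ≤ 2 e`, `D, q ≥ 0`. -/
theorem final_arith {v e : ℕ} (hv : v ≤ 2 * e) {D q : ℝ} (hD : 0 ≤ D) (hq : 0 ≤ q) :
    Real.exp v * (4 * Real.exp 1 * D * q) ^ e ≤ (81 * D * q) ^ e := by
  have hE : (1 : ℝ) ≤ Real.exp 1 := by
    have := Real.add_one_le_exp (1 : ℝ)
    linarith
  have hE0 : (0 : ℝ) ≤ Real.exp 1 := by linarith
  have h1 : Real.exp v ≤ (Real.exp 1 ^ 2) ^ e := by
    rw [← pow_mul, ← Real.exp_nat_mul, mul_one]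
    apply Real.exp_le_exp.2
    exact_mod_cast hv
  have h0 : (0 : ℝ) ≤ 4 * Real.exp 1 * D * q := by positivity
  calc Real.exp v * (4 * Real.exp 1 * D * q) ^ e
      ≤ (Real.exp 1 ^ 2) ^ e * (4 * Real.exp 1 * D * q) ^ e :=
        mul_le_mul_of_nonneg_right h1 (pow_nonneg h0 _)
    _ = ((4 * Real.exp 1 ^ 3) * (D * q)) ^ e := by
        rw [← mul_pow]
        ring
    _ ≤ (81 * (D * q)) ^ e := by
        apply pow_le_pow_left₀ (by positivity)
        exact mul_le_mul_of_nonneg_right four_mul_exp_cube_le (mul_nonneg hD hq)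
    _ = (81 * D * q) ^ e := by ring

end Vale.Agent.Lib.P064.H88
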