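import Vale.Agent.Lib.P064.helper49.Attached

/-!
# P064: the component chain for bounded-degree hosts (report 2170, step (iii))

If every closed set `S` and every attached block `T ⊃ S` satisfy the one-step extension bound
`|Ext F H S T ψ| ≤ wt n c F S T`, then the same bound holds from every closed `S` to the whole
vertex set: peel off one connected component at a time.
-/

namespace Vale.Agent.Lib.P064.H88

open Finset SimpleGraph Vale.Agent.KK Vale.Agent.KK.LS Vale.Agent.Lib.P064.LS
  Vale.Agent.Lib.P064.H49

variable {W : Type*} [Fintype W] [DecidableEq W]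

theorem deg_chain_of_step {n : ℕ} (H : SimpleGraph (Fin n)) (F : SimpleGraph W) (c : ℝ)
    (hc : 0 ≤ c)
    (hstep : ∀ S T : Finset W, S ⊂ T → (∀ y ∈ S, ∀ z, F.Adj y z → z ∈ S) →
        (∀ x ∈ T \ S, Attached F (insert x S) T) → ∀ ψ : W → Fin n,
        ((Ext F H S T ψ).card : ℝ) ≤ wt n c F S T) :
    ∀ S : Finset W, (∀ y ∈ S, ∀ z, F.Adj y z → z ∈ S) → ∀ ψ : W → Fin n,
        ((Ext F H S univ ψ).card : ℝ) ≤ wt n c F S univ := by
  classical
  have hfull : ∀ ψ : W → Fin n, ((Ext F H univ univ ψ).card : ℝ) ≤ wt n c F univ univ := by
    intro ψ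
    rw [wt_self]
    exact_mod_cast Ext_self_card F H univ ψ
  have key : ∀ k : ℕ, ∀ S : Finset W, (univ \ S).card ≤ k →
      (∀ y ∈ S, ∀ z, F.Adj y z → z ∈ S) → ∀ ψ : W → Fin n,
        ((Ext F H S univ ψ).card : ℝ) ≤ wt n c F S univ := by
    intro k
    induction k with
    | zero =>
      intro S hS hcl ψ
      have h0 : univ \ S = ∅ := Finset.card_eq_zero.1 (Nat.le_zero.1 hS)
      have hSu : S = univ := Finset.univ_subset_iff.1 (Finset.sdiff_eq_empty_iff_subset.1 h0)
      subst hSu
      exact hfull ψ
    | succ k ih =>
      intro S hS hcl ψ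
      by_cases hSu : S = univ
      · subst hSu
        exact hfull ψ
      · obtain ⟨x0, hx0⟩ : ∃ x0, x0 ∉ S := by
          by_contra h
          exact hSu (Finset.eq_univ_iff_forall.2 fun w => by
            by_contra hw
            exact h ⟨w, hw⟩)
        obtain ⟨T, hmemT⟩ : ∃ T : Finset W, ∀ w, w ∈ T ↔ w ∈ S ∨ F.Reachable x0 w :=
          ⟨S ∪ univ.filter (fun w => F.Reachable x0 w), fun w => by
            rw [mem_union, mem_filter]
            simp⟩
        have hST : S ⊂ T := by
          refine ⟨fun w hw => (hmemT w).2 (Or.inl hw), fun h => hx0 ?_⟩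
          exact h ((hmemT x0).2 (Or.inr (Reachable.refl x0)))
        have hTcl : ∀ y ∈ T, ∀ z, F.Adj y z → z ∈ T := by
          intro y hy z hyz
          rcases (hmemT y).1 hy with h | h
          · exact (hmemT z).2 (Or.inl (hcl y h z hyz))
          · exact (hmemT z).2 (Or.inr (h.trans hyz.reachable))
        have hAtt : ∀ x ∈ T \ S, Attached F (insert x S) T := by
          intro x hx Y hY hYT
          have hxT := (mem_sdiff.1 hx).1
          have hxS := (mem_sdiff.1 hx).2
          have hxr : F.Reachable x0 x := by
            rcases (hmemT x).1 hxT with h | h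
            · exact absurd h hxS
            · exact h
          obtain ⟨w, hwT, hwY⟩ := Finset.exists_of_ssubset hYT
          have hSY : S ⊆ Y := (Finset.subset_insert x S).trans hY
          have hxY : x ∈ Y := hY (Finset.mem_insert_self x S)
          have hwS : w ∉ S := fun h => hwY (hSY h)
          have hwr : F.Reachable x0 w := by
            rcases (hmemT w).1 hwT with h | h
            · exact absurd h hwS
            · exact h
          obtain ⟨p⟩ := hxr.symm.trans hwr
          obtain ⟨d, -, hd1, hd2⟩ := p.exists_boundary_dart (Y : Set W)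
            (Finset.mem_coe.2 hxY) (fun h => hwY (Finset.mem_coe.1 h))
          have hd1' : d.fst ∈ Y := Finset.mem_coe.1 hd1
          have hd2' : d.snd ∉ Y := fun h => hd2 (Finset.mem_coe.2 h)
          have hfS : d.fst ∉ S := fun h => hd2' (hSY (hcl _ h _ d.adj))
          have hfr : F.Reachable x0 d.fst := by
            rcases (hmemT d.fst).1 (hYT.1 hd1') with h | h
            · exact absurd h hfS
            · exact h
          have hsT : d.snd ∈ T := (hmemT d.snd).2 (Or.inr (hfr.trans d.adj.reachable))
          exact ⟨d.snd, mem_sdiff.2 ⟨hsT, hd2'⟩, d.fst, hd1', d.adj⟩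
        have h1 := hstep S T hST hcl hAtt ψ
        have hcard : (univ \ T).card ≤ k := by
          have e1 : (univ \ T).card = Fintype.card W - T.card := by
            rw [← Finset.compl_eq_univ_sdiff, Finset.card_compl]
          have e2 : (univ \ S).card = Fintype.card W - S.card := by
            rw [← Finset.compl_eq_univ_sdiff, Finset.card_compl]
          have e3 := Finset.card_lt_card hST
          have e4 := Finset.card_le_univ T
          omega
        have h2 : ∀ φ : W → Fin n, ((Ext F H T univ φ).card : ℝ) ≤ wt n c F T univ :=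
          fun φ => ih T hcard hTcl φ
        have h3 := Ext_split_card F H hST.1 (Finset.subset_univ T) ψ (wt n c F T univ) h2
        have hw : 0 ≤ wt n c F T univ := by
          unfold wt
          positivity
        calc ((Ext F H S univ ψ).card : ℝ)
            ≤ ((Ext F H S T ψ).card : ℝ) * wt n c F T univ := h3
          _ ≤ wt n c F S T * wt n c F T univ := mul_le_mul_of_nonneg_right h1 hw
          _ = wt n c F S univ := (wt_mul n c F hST.1 (Finset.subset_univ T)).symm
  intro S hcl ψ
  exact key _ S le_rfl hcl ψ

end Vale.Agent.Lib.P064.H88
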